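import Vale.Agent.P166.Haar2.Atoms.Facts
import Vale.Agent.P166.Haar2.RTransform

/-!
The continued R-transform of finitely many atoms is the rational one.
-/

noncomputable section

open MeasureTheory Filter Set
open scoped BigOperators Topology ENNReal

namespace Vale.Agent.P166.Haar2

open Vale.Agent.P157.Parisi (IsPath)

namespace Atoms

variable {K : ℕ} (A : Atoms K)

lemma law_apply {s : Set ℝ} (hs : MeasurableSet s) :
    A.law s = ∑ k, ENNReal.ofReal (A.c k) * s.indicator 1 (A.a k) := by
  simp [law, Measure.dirac_apply' _ hs]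

lemma integral_law (f : ℝ → ℝ) : ∫ l, f l ∂A.law = ∑ k, A.c k * f (A.a k) := by
  have hi : ∀ k, Integrable f (ENNReal.ofReal (A.c k) • Measure.dirac (A.a k)) := fun k =>
    (integrable_dirac (by simp)).smul_measure ENNReal.ofReal_ne_top
  rw [law, integral_finsetSum_measure fun k _ => hi k]
  refine Finset.sum_congr rfl fun k _ => ?_
  rw [integral_smul_measure, integral_dirac, ENNReal.toReal_ofReal (A.pos k).le, smul_eq_mul]

lemma support_law : A.law.support = range A.a := by
  apply subset_antisymm
  · have hm : MeasurableSet (range A.a)ᶜ := (finite_range A.a).measurableSet.compl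
    refine Measure.support_subset_of_isClosed (finite_range A.a).isClosed ?_
    rw [mem_ae_iff, A.law_apply hm]
    simp
  · rintro _ ⟨k, rfl⟩
    rw [Measure.mem_support_iff_forall]
    intro U hU
    obtain ⟨V, hVU, hV, hk⟩ := mem_nhds_iff.1 hU
    refine lt_of_lt_of_le ?_ (measure_mono hVU)
    rw [A.law_apply hV.measurableSet]
    refine lt_of_lt_of_le ?_ (Finset.single_le_sum (fun j _ => zero_le) (Finset.mem_univ k))
    simp [hk, A.pos k]

lemma sSup_support_law : sSup A.law.support = A.top := by
  rw [A.support_law]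
  exact IsGreatest.csSup_eq ⟨mem_range_self _, by
    rintro _ ⟨k, rfl⟩
    exact A.mono.monotone (Fin.le_last k)⟩

lemma integral_inv (z : ℝ) : ∫ l, (z - l)⁻¹ ∂A.law = RTransform.G A.c A.a z := by
  simp [A.integral_law, RTransform.G, div_eq_mul_inv]

lemma invStieltjes_law {z x : ℝ} (hz : A.top < z) (hG : RTransform.G A.c A.a z = x) :
    invStieltjes A.law x = z := by
  have hanti := RTransform.G_strictAnti (fun k => (A.pos k).le) (A.pos (Fin.last K))
    (fun k => A.mono.monotone (Fin.le_last k))
  simp only [invStieltjes, A.sSup_support_law, A.integral_inv]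
  refine IsLeast.csInf_eq ⟨⟨hz, hG.le⟩, fun w hw => ?_⟩
  by_contra h
  push Not at h
  have := hanti (mem_Ioi.2 hw.1) (mem_Ioi.2 hz) h
  linarith [hw.2]

lemma rA_scale {β : ℝ} (hβ : 0 < β) {d : ℝ} (hd : 0 ≤ d) :
    (A.scale β hβ).rA d = β * RT A.law (β * d) := by
  set B := A.scale β hβ with hB
  have hB_a : ∀ k, B.a k = β * A.a k := fun k => rfl
  have hB_c : ∀ k, B.c k = A.c k := fun k => rfl
  rcases eq_or_lt_of_le hd with rfl | hd'
  · have hc := B.ctop_pos.ne'
    simp only [rA, RT, topOf_zero, share_zero, mul_zero, le_refl, if_true]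
    rw [← Finset.sum_div, B.sum_one, A.integral_law]
    simp only [mul_div_assoc', hB_a, hB_c]
    rw [← Finset.sum_div, div_div_div_cancel_right₀ hc, div_one, Finset.mul_sum]
    exact Finset.sum_congr rfl fun k _ => by ring
  have hx : 0 < β * d := mul_pos hβ hd'
  set y := B.topOf d with hy_def
  have hty := B.total_topOf hd
  rw [← hy_def] at hty
  have hy : 0 < y := lt_of_le_of_ne (B.topOf_nonneg d) fun h => by
    rw [← h, B.total_zero] at hty
    exact hd'.ne hty
  have hS := B.sum_share_pos hy.le
  rw [total] at hty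
  set z := A.top + A.ctop / (β * y) with hz_def
  have hzt : A.top < z := lt_add_of_pos_right _ (div_pos A.ctop_pos (mul_pos hβ hy))
  have hB_ctop : B.ctop = A.ctop := rfl
  have hB_gap : ∀ k, B.gapTop k = β * A.gapTop k := fun k => by
    simp only [gapTop, top, hB_a]; ring
  have hne : ∀ k, z - A.a k ≠ 0 := fun k => by
    have : A.a k ≤ A.top := A.mono.monotone (Fin.le_last k)
    exact (by linarith : 0 < z - A.a k).ne'
  have key : ∀ k, (z - A.a k) * B.share k y = A.c k / (β * y) := fun k => by
    have := (B.den_pos k hy.le).ne'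
    rw [hB_ctop, hB_gap] at this
    have e : z - A.a k = (A.ctop + β * A.gapTop k * y) / (β * y) := by
      rw [hz_def, gapTop]; field_simp; ring
    rw [share, hB_c, hB_ctop, hB_gap, e, div_mul_div_comm, mul_comm _ (A.c k),
      mul_div_mul_right _ _ this]
  have hG : RTransform.G A.c A.a z = β * d := by
    rw [← hty, RTransform.G, Finset.mul_sum, Finset.mul_sum]
    refine Finset.sum_congr rfl fun k _ => ?_
    rw [div_eq_iff (hne k)]
    calc A.c k = β * y * (A.c k / (β * y)) := by field_simp
      _ = _ := by rw [← key k]; ring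
  rw [RT, if_neg (not_le.2 hx), A.invStieltjes_law hzt hG, rA, ← hy_def, div_eq_iff hS.ne']
  have e1 : ∑ k, (z - A.a k) * B.share k y = (β * y)⁻¹ := by
    simp only [key, ← Finset.sum_div, A.sum_one, one_div]
  simp only [sub_mul, Finset.sum_sub_distrib, ← Finset.mul_sum] at e1
  have e2 : (β * d)⁻¹ * ∑ k, B.share k y = (β * y)⁻¹ := by
    rw [← hty]; field_simp
  simp only [hB_a, mul_assoc, ← Finset.mul_sum]
  linear_combination -β * e1 + β * e2

end Atoms

lemma dfun_nonneg {r : ℕ} {m : Fin r → ℝ} {q : Fin (r + 1) → ℝ} (hq : IsPath m q) {u : ℝ}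
    (hu : u ≤ 1) : 0 ≤ dfun m q u := by
  refine add_nonneg (sub_nonneg.2 (max_le hu hq.le_one)) (Finset.sum_nonneg fun i _ => ?_)
  exact mul_nonneg (hq.pos i).le
    (sub_nonneg.2 (max_le_max le_rfl (hq.mono i.castSucc_lt_succ.le)))

/-- The energy functional of atoms is the general one. -/
theorem transform : TransformStmt := fun K A β hβ r m q hq => by
  simp only [funG, Atoms.funA]
  rw [div_mul_eq_mul_div, intervalIntegral.integral_congr
    (g := fun u => β * RT A.law (β * dfun m q u))
    (fun u hu => A.rA_scale hβ (dfun_nonneg hq ?_)), intervalIntegral.integral_const_mul]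
  · ring
  · rw [uIcc_of_le zero_le_one] at hu
    exact hu.2

end Vale.Agent.P166.Haar2
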