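import Vale.Agent.P166.Haar2.Statements

/-!
Elementary facts about the atoms: the inverse of the total, its derivative, monotonicity.
-/

noncomputable section

open Filter Set
open scoped BigOperators Topology NNReal

namespace Vale.Agent.P166.Haar2.Atoms

variable {K : ℕ} (A : Atoms K)

lemma gapTop_nonneg (k : Fin (K + 1)) : 0 ≤ A.gapTop k :=
  sub_nonneg.2 (A.mono.monotone (Fin.le_last k))

@[simp] lemma gapTop_last : A.gapTop (Fin.last K) = 0 := sub_self _

lemma ctop_pos : 0 < A.ctop := A.pos _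

lemma den_pos (k : Fin (K + 1)) {y : ℝ} (hy : 0 ≤ y) : 0 < A.ctop + A.gapTop k * y :=
  add_pos_of_pos_of_nonneg A.ctop_pos (mul_nonneg (A.gapTop_nonneg k) hy)

lemma share_pos (k : Fin (K + 1)) {y : ℝ} (hy : 0 ≤ y) : 0 < A.share k y :=
  div_pos (A.pos k) (A.den_pos k hy)

lemma dshare_pos (k : Fin (K + 1)) {y : ℝ} (hy : 0 ≤ y) : 0 < A.dshare k y :=
  div_pos (mul_pos (A.pos k) A.ctop_pos) (pow_pos (A.den_pos k hy) 2)

lemma sum_share_pos {y : ℝ} (hy : 0 ≤ y) : 0 < ∑ k, A.share k y :=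
  Finset.sum_pos (fun k _ => A.share_pos k hy) Finset.univ_nonempty

lemma sum_dshare_pos {y : ℝ} (hy : 0 ≤ y) : 0 < ∑ k, A.dshare k y :=
  Finset.sum_pos (fun k _ => A.dshare_pos k hy) Finset.univ_nonempty

@[simp] lemma share_last (y : ℝ) : A.share (Fin.last K) y = 1 := by
  simp [share, ctop, (A.pos (Fin.last K)).ne']

lemma share_zero (k : Fin (K + 1)) : A.share k 0 = A.c k / A.ctop := by simp [share]

@[simp] lemma total_zero : A.total 0 = 0 := by simp [total]

/-- The share times `y` is monotone. -/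
lemma mul_share_mono (k : Fin (K + 1)) {x y : ℝ} (hx : 0 ≤ x) (hxy : x ≤ y) :
    x * A.share k x ≤ y * A.share k y := by
  have h1 := A.den_pos k hx
  have h2 := A.den_pos k (hx.trans hxy)
  rw [share, share, mul_div_assoc', mul_div_assoc', div_le_div_iff₀ h1 h2]
  nlinarith [mul_nonneg (mul_nonneg (A.pos k).le A.ctop_pos.le) (sub_nonneg.2 hxy)]

lemma sub_le_total_sub {x y : ℝ} (hx : 0 ≤ x) (hxy : x ≤ y) : y - x ≤ A.total y - A.total x := by
  rw [total, total, Finset.mul_sum, Finset.mul_sum, ← Finset.sum_sub_distrib]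
  refine le_trans (le_of_eq ?_) (Finset.single_le_sum
    (f := fun k => y * A.share k y - x * A.share k x)
    (fun k _ => sub_nonneg.2 (A.mul_share_mono k hx hxy)) (Finset.mem_univ (Fin.last K)))
  simp

lemma le_total {y : ℝ} (hy : 0 ≤ y) : y ≤ A.total y := by
  simpa using A.sub_le_total_sub le_rfl hy

lemma total_lt {x y : ℝ} (hx : 0 ≤ x) (hxy : x < y) : A.total x < A.total y := by
  linarith [A.sub_le_total_sub hx hxy.le]

lemma hasDerivAt_mul_share (k : Fin (K + 1)) {y : ℝ} (hy : 0 ≤ y) :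
    HasDerivAt (fun u => u * A.share k u) (A.dshare k y) y := by
  have hd := (A.den_pos k hy).ne'
  refine ((hasDerivAt_id' y).mul ((hasDerivAt_const y (A.c k)).div
    (((hasDerivAt_id' y).const_mul (A.gapTop k)).const_add A.ctop) hd)).congr_deriv ?_
  simp only [dshare, Pi.div_apply]
  field_simp
  ring

lemma hasDerivAt_total {y : ℝ} (hy : 0 ≤ y) : HasDerivAt A.total (∑ k, A.dshare k y) y := by
  have e : A.total = fun u => ∑ k, u * A.share k u := funext fun u => Finset.mul_sum _ _ _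
  rw [e]
  exact HasDerivAt.fun_sum fun k _ => A.hasDerivAt_mul_share k hy

lemma topSet_bddAbove (d : ℝ) : BddAbove {y : ℝ | 0 ≤ y ∧ A.total y ≤ max d 0} :=
  ⟨max d 0, fun _ hy => (A.le_total hy.1).trans hy.2⟩

lemma topOf_total {y : ℝ} (hy : 0 ≤ y) : A.topOf (A.total y) = y := by
  have h0 : 0 ≤ A.total y := hy.trans (A.le_total hy)
  refine IsGreatest.csSup_eq ⟨⟨hy, le_max_left _ _⟩, fun x hx => ?_⟩
  by_contra h
  push Not at h
  have := hx.2
  rw [max_eq_left h0] at this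
  linarith [A.total_lt hy h]

lemma exists_total {d : ℝ} (hd : 0 ≤ d) : ∃ y, 0 ≤ y ∧ A.total y = d := by
  obtain ⟨y, hy, e⟩ := intermediate_value_Icc hd
    (fun x hx => (A.hasDerivAt_total hx.1).continuousAt.continuousWithinAt)
    (show d ∈ Icc (A.total 0) (A.total d) from ⟨by simpa using hd, A.le_total hd⟩)
  exact ⟨y, hy.1, e⟩

lemma total_topOf {d : ℝ} (hd : 0 ≤ d) : A.total (A.topOf d) = d := by
  obtain ⟨y, hy, rfl⟩ := A.exists_total hd
  rw [A.topOf_total hy]

lemma topOf_max (d : ℝ) : A.topOf (max d 0) = A.topOf d := by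
  simp [topOf]

lemma topOf_nonneg (d : ℝ) : 0 ≤ A.topOf d :=
  le_csSup (A.topSet_bddAbove d) ⟨le_rfl, by simp⟩

lemma topOf_mono : Monotone A.topOf := fun d d' h =>
  csSup_le_csSup (A.topSet_bddAbove d') ⟨0, le_rfl, by simp⟩
    fun _ hy => ⟨hy.1, hy.2.trans (max_le_max h le_rfl)⟩

lemma topOf_le {d : ℝ} (hd : 0 ≤ d) : A.topOf d ≤ d :=
  (A.le_total (A.topOf_nonneg d)).trans_eq (A.total_topOf hd)

@[simp] lemma topOf_zero : A.topOf 0 = 0 := by
  simpa using A.topOf_total (y := 0) le_rfl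

lemma abs_topOf_sub (d d' : ℝ) : |A.topOf d - A.topOf d'| ≤ |d - d'| := by
  wlog h : d' ≤ d generalizing d d'
  · rw [abs_sub_comm, abs_sub_comm d]
    exact this d' d (le_of_not_ge h)
  rw [abs_of_nonneg (sub_nonneg.2 (A.topOf_mono h)), abs_of_nonneg (sub_nonneg.2 h)]
  have h1 := A.sub_le_total_sub (A.topOf_nonneg d') (A.topOf_mono h)
  rw [← A.topOf_max d, ← A.topOf_max d'] at h1 ⊢
  rw [A.total_topOf (le_max_right _ _), A.total_topOf (le_max_right _ _)] at h1
  refine h1.trans ?_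
  rcases _root_.le_total d 0 with h2 | h2
  · rw [max_eq_right h2, max_eq_right (h.trans h2)]; linarith
  · rw [max_eq_left h2]; linarith [le_max_left d' 0]

lemma continuous_topOf : Continuous A.topOf := by
  refine (LipschitzWith.of_dist_le_mul (K := 1) fun d d' => ?_).continuous
  simpa [Real.dist_eq] using A.abs_topOf_sub d d'

lemma hasDerivAt_topOf {d : ℝ} (hd : 0 < d) :
    HasDerivAt A.topOf (∑ k, A.dshare k (A.topOf d))⁻¹ d :=
  HasDerivAt.of_local_left_inverse A.continuous_topOf.continuousAt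
    (A.hasDerivAt_total (A.topOf_nonneg d)) (A.sum_dshare_pos (A.topOf_nonneg d)).ne'
    (Filter.eventually_of_mem (Ioi_mem_nhds hd) fun _ hu => A.total_topOf (mem_Ioi.1 hu).le)

lemma hasDerivAt_blockOf (k : Fin (K + 1)) {d : ℝ} (hd : 0 < d) :
    HasDerivAt (A.blockOf k) (A.dblockOf k d) d :=
  ((A.hasDerivAt_mul_share k (A.topOf_nonneg d)).comp d (A.hasDerivAt_topOf hd)).congr_deriv
    (div_eq_mul_inv _ _).symm

lemma sum_blockOf {d : ℝ} (hd : 0 ≤ d) : ∑ k, A.blockOf k d = d := by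
  simp only [blockOf]
  rw [← Finset.mul_sum]
  exact A.total_topOf hd

lemma mul_rA {d : ℝ} (hd : 0 ≤ d) : d * A.rA d = ∑ k, A.a k * A.blockOf k d := by
  have hS := (A.sum_share_pos (A.topOf_nonneg d)).ne'
  have ht := A.total_topOf hd
  rw [total] at ht
  conv_lhs => arg 1; rw [← ht]
  simp only [rA, blockOf]
  rw [mul_assoc, mul_div_cancel₀ _ hS, Finset.mul_sum]
  exact Finset.sum_congr rfl fun k _ => by ring

lemma hasDerivAt_psi {d : ℝ} (hd : 0 < d) :
    HasDerivAt (fun u => u * A.rA u) (A.dpsi d) d := by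
  refine (HasDerivAt.fun_sum (u := Finset.univ) fun k _ =>
    (A.hasDerivAt_blockOf k hd).const_mul (A.a k)).congr_of_eventuallyEq ?_
  exact Filter.eventually_of_mem (Ioi_mem_nhds hd) fun u hu => A.mul_rA (mem_Ioi.1 hu).le

lemma dshare_pair {x y : ℝ} (hx : 0 ≤ x) (hxy : x ≤ y) {k l : Fin (K + 1)}
    (h : A.a l ≤ A.a k) : A.dshare k x * A.dshare l y ≤ A.dshare k y * A.dshare l x := by
  have hy := hx.trans hxy
  have g : A.gapTop k ≤ A.gapTop l := by unfold gapTop; linarith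
  have p1 := A.den_pos k hx
  have p2 := A.den_pos l hy
  have p3 := A.den_pos k hy
  have p4 := A.den_pos l hx
  simp only [dshare, div_mul_div_comm, ← mul_pow]
  refine div_le_div_of_nonneg_left ?_ (by positivity) (pow_le_pow_left₀ (by positivity) ?_ 2)
  · exact (mul_pos (mul_pos (A.pos k) A.ctop_pos) (mul_pos (A.pos l) A.ctop_pos)).le
  · nlinarith [mul_nonneg (mul_nonneg A.ctop_pos.le (sub_nonneg.2 g)) (sub_nonneg.2 hxy)]

lemma dpsi_eq (d : ℝ) : A.dpsi d =
    (∑ k, A.a k * A.dshare k (A.topOf d)) / ∑ k, A.dshare k (A.topOf d) := by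
  simp only [dpsi, dblockOf, ← mul_div_assoc]
  rw [Finset.sum_div]

lemma monotoneOn_dpsi : MonotoneOn A.dpsi (Ici 0) := fun d _ d' _ h => by
  have hx := A.topOf_nonneg d
  have hxy := A.topOf_mono h
  have hy := A.topOf_nonneg d'
  rw [A.dpsi_eq, A.dpsi_eq, div_le_div_iff₀ (A.sum_dshare_pos hx) (A.sum_dshare_pos hy)]
  set x := A.topOf d
  set y := A.topOf d'
  let D : Fin (K + 1) → Fin (K + 1) → ℝ := fun k l =>
    A.a k * A.dshare k y * A.dshare l x - A.a k * A.dshare k x * A.dshare l y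
  have e : (∑ k, A.a k * A.dshare k y) * (∑ l, A.dshare l x) -
      (∑ k, A.a k * A.dshare k x) * (∑ l, A.dshare l y) = ∑ k, ∑ l, D k l := by
    simp only [D, Finset.sum_mul_sum, Finset.sum_sub_distrib]
  have h2 : 0 ≤ ∑ k, ∑ l, (D k l + D l k) := Finset.sum_nonneg fun k _ => Finset.sum_nonneg
    fun l _ => by
      have r : D k l + D l k =
          (A.a k - A.a l) * (A.dshare k y * A.dshare l x - A.dshare k x * A.dshare l y) := by
        simp only [D]; ring
      rw [r]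
      rcases _root_.le_total (A.a l) (A.a k) with hkl | hkl
      · exact mul_nonneg (sub_nonneg.2 hkl) (sub_nonneg.2 (A.dshare_pair hx hxy hkl))
      · exact mul_nonneg_of_nonpos_of_nonpos (sub_nonpos.2 hkl)
          (by nlinarith [A.dshare_pair hx hxy hkl])
  simp only [Finset.sum_add_distrib] at h2
  rw [Finset.sum_comm (f := fun k l => D l k)] at h2
  linarith

lemma lip_comp {F : ℝ → ℝ} (hF : ContDiffOn ℝ 1 F (Icc 0 1)) :
    ∃ C : ℝ, 0 ≤ C ∧ ∀ d ∈ Icc (0 : ℝ) 1, ∀ d' ∈ Icc (0 : ℝ) 1,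
      |F (A.topOf d) - F (A.topOf d')| ≤ C * |d - d'| := by
  obtain ⟨C, hC⟩ := hF.exists_lipschitzOnWith one_ne_zero (convex_Icc 0 1) isCompact_Icc
  refine ⟨C, C.2, fun d hd d' hd' => ?_⟩
  have := hC.dist_le_mul (A.topOf d) ⟨A.topOf_nonneg d, (A.topOf_le hd.1).trans hd.2⟩
    (A.topOf d') ⟨A.topOf_nonneg d', (A.topOf_le hd'.1).trans hd'.2⟩
  rw [Real.dist_eq, Real.dist_eq] at this
  exact this.trans (mul_le_mul_of_nonneg_left (A.abs_topOf_sub d d') C.2)

lemma contDiffOn_share (k : Fin (K + 1)) : ContDiffOn ℝ 1 (A.share k) (Icc 0 1) :=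
  contDiffOn_const.div (contDiffOn_const.add (contDiffOn_const.mul contDiffOn_id))
    fun _ hy => (A.den_pos k hy.1).ne'

lemma contDiffOn_dshare (k : Fin (K + 1)) : ContDiffOn ℝ 1 (A.dshare k) (Icc 0 1) :=
  contDiffOn_const.div ((contDiffOn_const.add (contDiffOn_const.mul contDiffOn_id)).pow 2)
    fun _ hy => (pow_pos (A.den_pos k hy.1) 2).ne'

lemma lip_all : ∃ C : ℝ, ∀ d ∈ Icc (0 : ℝ) 1, ∀ d' ∈ Icc (0 : ℝ) 1,
    |A.rA d - A.rA d'| ≤ C * |d - d'| ∧ |A.dpsi d - A.dpsi d'| ≤ C * |d - d'| ∧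
      ∀ k, |A.blockOf k d - A.blockOf k d'| ≤ C * |d - d'| ∧
        |A.dblockOf k d - A.dblockOf k d'| ≤ C * |d - d'| := by
  have hS : ContDiffOn ℝ 1 (fun y => ∑ k, A.share k y) (Icc 0 1) :=
    ContDiffOn.sum fun k _ => A.contDiffOn_share k
  have hD : ContDiffOn ℝ 1 (fun y => ∑ k, A.dshare k y) (Icc 0 1) :=
    ContDiffOn.sum fun k _ => A.contDiffOn_dshare k
  obtain ⟨C1, p1, h1⟩ := A.lip_comp (F := fun y => (∑ k, A.a k * A.share k y) / ∑ k, A.share k y)
    ((ContDiffOn.sum fun k _ => contDiffOn_const.mul (A.contDiffOn_share k)).div hS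
      fun _ hy => (A.sum_share_pos hy.1).ne')
  obtain ⟨C2, p2, h2⟩ := A.lip_comp (F := fun y => (∑ k, A.a k * A.dshare k y) / ∑ k, A.dshare k y)
    ((ContDiffOn.sum fun k _ => contDiffOn_const.mul (A.contDiffOn_dshare k)).div hD
      fun _ hy => (A.sum_dshare_pos hy.1).ne')
  choose C3 p3 h3 using fun k => A.lip_comp (F := fun y => y * A.share k y)
    (contDiffOn_id.mul (A.contDiffOn_share k))
  choose C4 p4 h4 using fun k => A.lip_comp (F := fun y => A.dshare k y / ∑ j, A.dshare j y)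
    ((A.contDiffOn_dshare k).div hD fun _ hy => (A.sum_dshare_pos hy.1).ne')
  have n3 : 0 ≤ ∑ k, C3 k := Finset.sum_nonneg fun k _ => p3 k
  have n4 : 0 ≤ ∑ k, C4 k := Finset.sum_nonneg fun k _ => p4 k
  refine ⟨C1 + C2 + ∑ k, C3 k + ∑ k, C4 k, fun d hd d' hd' => ⟨?_, ?_, fun k => ⟨?_, ?_⟩⟩⟩
  · exact (h1 d hd d' hd').trans (mul_le_mul_of_nonneg_right (by linarith) (abs_nonneg _))
  · rw [A.dpsi_eq, A.dpsi_eq]
    exact (h2 d hd d' hd').trans (mul_le_mul_of_nonneg_right (by linarith) (abs_nonneg _))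
  · refine (h3 k d hd d' hd').trans (mul_le_mul_of_nonneg_right ?_ (abs_nonneg _))
    linarith [Finset.single_le_sum (fun j _ => p3 j) (Finset.mem_univ k)]
  · refine (h4 k d hd d' hd').trans (mul_le_mul_of_nonneg_right ?_ (abs_nonneg _))
    linarith [Finset.single_le_sum (fun j _ => p4 j) (Finset.mem_univ k)]

end Vale.Agent.P166.Haar2.Atoms

namespace Vale.Agent.P166.Haar2

/-- The elementary facts. -/
theorem atomFacts : AtomFactsStmt := fun _ A =>
  { topOf_nonneg := A.topOf_nonneg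
    total_topOf := fun _ h => A.total_topOf h
    topOf_total := fun _ h => A.topOf_total h
    topOf_mono := A.topOf_mono
    topOf_le := fun _ h => A.topOf_le h
    sum_blockOf := fun _ h => A.sum_blockOf h
    deriv_block := fun k _ h => A.hasDerivAt_blockOf k h
    deriv_psi := fun _ h => A.hasDerivAt_psi h
    dpsi_mono := A.monotoneOn_dpsi
    lip := A.lip_all }

end Vale.Agent.P166.Haar2
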